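import Vale.Agent.P313.AC.FDef

/-!
The invariant holds at all times.
-/

namespace Vale.Agent.P313.AC.H215

open Finset

theorem all14 {B : ℕ} {b : Fin 14 → ℕ} (h0 : b 0 < B) (h1 : b 1 < B) (h2 : b 2 < B) (h3 : b 3 < B)
    (h4 : b 4 < B) (h5 : b 5 < B) (h6 : b 6 < B) (h7 : b 7 < B) (h8 : b 8 < B) (h9 : b 9 < B)
    (h10 : b 10 < B) (h11 : b 11 < B) (h12 : b 12 < B) (h13 : b 13 < B) : ∀ i, b i < B := by
  intro i
  fin_cases i <;> assumption

/-- Bounds for one input length. -/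
structure Bd (D : Dat) (n : ℕ) : Prop where
  five : 5 ≤ (n + 2) ^ D.e
  L : (D.p n).L < (n + 2) ^ D.e
  tm : (D.p n).tm < (n + 2) ^ D.e
  N : (D.p n).N < (n + 2) ^ D.e
  U : (D.p n).U < (n + 2) ^ D.e
  P : (D.p n).P < (n + 2) ^ D.e
  P2 : (D.p n).P ^ 2 ≤ (n + 2) ^ D.e
  R40 : gR D n ^ 40 ≤ (n + 2) ^ D.e
  R : gR D n ≤ (n + 2) ^ D.e
  J : gJ D n * gJ D n < (n + 2) ^ D.e
  Kb : ∀ m, m ≤ (D.p n).tm + 3 → gKb D n m < (n + 2) ^ D.e
  Q : 4 * (D.p n).Q < (n + 2) ^ D.e
  V : (D.p n).V ≤ (n + 2) ^ D.e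
  f : (D.p n).f < (n + 2) ^ D.e
  Upos : 0 < (D.p n).U
  J2 : gJ D n * gJ D n = (D.p n).f ^ (2 * D.j0)
  NU : (D.p n).N ≤ (D.p n).U
  Lq : (D.p n).Lq ≤ (n + 2) ^ D.e
  τ : (D.p n).τ < (n + 2) ^ D.e

theorem bd {D : Dat} (h : D.Ok) (n : ℕ) : Bd D n := by
  have hg := h.good n
  have hF := h.goodF
  have hP2 : 2 ≤ (D.p n).P := hg.hP.two_le
  have hR40 : gR D n ^ 40 ≤ (n + 2) ^ D.e := hF.hR n
  have hP2R : (D.p n).P ^ 2 ≤ gR D n := by
    unfold gR
    exact Nat.le_mul_of_pos_right _ (by positivity)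
  have hRpos : 0 < gR D n := lt_of_lt_of_le (by positivity) hP2R
  have hRR : gR D n ≤ gR D n ^ 40 := Nat.le_self_pow (by norm_num) _
  have hP4 : 4 ≤ (D.p n).P ^ 2 := by nlinarith
  have hN1 : 1 ≤ (D.p n).N := by rw [hg.hN]; exact Nat.one_le_two_pow
  have hC1 : 1 ≤ (D.p n).C := by unfold Pr.C; omega
  have hNU : (D.p n).N ≤ (D.p n).U := by
    unfold Pr.U; exact Nat.le_mul_of_pos_right _ hC1
  have hU := hg.hU
  have hV := hg.hV
  have hVn := hF.hV n
  have hLn := hF.hL n
  have hlam : D.e * lam n < (n + 2) ^ D.e := by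
    have h1 : 2 ^ lam n ≤ n + 2 := Nat.pow_log_le_self 2 (by omega)
    calc D.e * lam n < 2 ^ (D.e * lam n) := Nat.lt_two_pow_self
      _ = (2 ^ lam n) ^ D.e := by rw [mul_comm, pow_mul]
      _ ≤ (n + 2) ^ D.e := Nat.pow_le_pow_left h1 _
  have hJ2 : gJ D n * gJ D n = (D.p n).f ^ (2 * D.j0) := by
    unfold gJ; rw [← pow_add]; congr 1; ring
  have hfJ : (D.p n).f ^ (2 * D.j0) ≤ (D.p n).f ^ (2 * D.j0) * (D.p n).U :=
    Nat.le_mul_of_pos_right _ (by omega)
  have hf1 : (D.p n).f ≤ (D.p n).f ^ (2 * D.j0) :=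
    Nat.le_self_pow (by have := h.hj; omega) _
  have hf2 := hg.f2
  refine ⟨?_, by omega, by omega, by omega, by omega, by omega, by omega, hR40, by omega, ?_, ?_,
    by omega, hVn, by omega, by omega, hJ2, hNU, ?_, ?_⟩
  · have : 16 ≤ gR D n ^ 40 := by
      calc 16 = 4 ^ 2 := by norm_num
        _ ≤ gR D n ^ 2 := Nat.pow_le_pow_left (by omega) 2
        _ ≤ gR D n ^ 40 := Nat.pow_le_pow_right hRpos (by norm_num)
    omega
  · rw [hJ2]; omega
  · intro m hm
    have h1 : gKb D n m ≤ (2 ^ (D.p n).b) ^ (4 * ((D.p n).tm + 3) + 3) := by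
      unfold gKb gB
      exact Nat.pow_le_pow_right (by positivity) (by omega)
    have := hg.hK
    omega
  · exact le_trans (Nat.le_self_pow (by omega) _) (hF.hq n)
  · have h1 : (D.p n).τ < 8 ^ (D.p n).τ := Nat.lt_pow_self (by norm_num)
    have h2 : 8 ^ (D.p n).τ ≤ gR D n := by
      unfold gR; exact Nat.le_mul_of_pos_left _ (by positivity)
    omega

theorem prc_le {b l t i j T : ℕ} (ht : t ≤ T) (h : okp b l t i j) : prc b l t i j ≤ T + 3 := by
  unfold okp at h
  unfold prc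
  omega

theorem modF7 (h2 : ModF2) (h3 : ModF3) (h4 : ModF4) (h5 : ModF5) (h6 : ModF6) : ModF7 := by
  intro D x hD hB T
  have B := bd hD x.length
  have hf2 := (hD.good x.length).f2
  induction T with
  | zero =>
    refine ⟨?_, ?_, ?_, ?_⟩
    · intro l t u y v _ _ _ _ _ _ hr
      unfold rA at hr; omega
    · intro l t i j sg u y K g h s w v _ _ _ _ _ _ _ _ _ _ _ hr
      unfold rT at hr; omega
    · intro l t i j sg u y v _ _ _ _ _ _ _ hr
      unfold rE at hr; omega
    · intro l t sg u y s w v _ _ _ _ _ _ _ hr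
      unfold rS at hr; omega
  | succ T ih =>
    have five := B.five
    refine ⟨?_, ?_, ?_, ?_⟩
    · intro l t u y v hl ht0 ht hu hy hv hr
      have hrng : ∀ i, aA l t u y v i < (x.length + 2) ^ D.e := by
        have := B.L; have := B.tm; have := B.N
        apply all14 <;> simp only [aA, Matrix.cons_val] <;> omega
      show (_ ∧ _) ↔ _
      rw [and_iff_right hrng]
      cases l with
      | zero => exact h2 D x hD 0 t u y v _ rfl hu hy hv
      | succ l => exact h3 D x hD hB T _ ih l t u y v hl ht0 ht hu hy hv hr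
    · intro l t i j sg u y K g h s w v hl ht hok hsg hu hy hK hg hh hw hv hr
      have hrng : ∀ q, aT l t i j sg u y K g h s w v q < (x.length + 2) ^ D.e := by
        have := B.L; have := B.tm; have := B.N; have := B.U; have := B.P2
        have h1 := B.Kb _ (prc_le ht hok)
        have h2 : i ≤ t ∧ j ≤ t := ⟨hok.2.1, hok.2.2.2.1⟩
        have h3 : s < (D.p x.length).f ^ s := Nat.lt_pow_self (by omega)
        have h4 : w + 1 ≤ (w + 1) * (D.p x.length).f ^ s :=
          Nat.le_mul_of_pos_right _ (by positivity)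
        have h5 : (D.p x.length).f ^ s ≤ (w + 1) * (D.p x.length).f ^ s :=
          Nat.le_mul_of_pos_left _ (by omega)
        apply all14 <;> simp only [aT, Matrix.cons_val] <;> omega
      show (_ ∧ _) ↔ _
      rw [and_iff_right hrng]
      exact h4 D x hD hB T _ ih l t i j sg u y K g h s w v hl ht hok hsg hu hy hK hg hh hw hv hr
    · intro l t i j sg u y v hl ht hok hsg hu hy hv hr
      have hrng : ∀ q, aE l t i j sg u y v q < (x.length + 2) ^ D.e := by
        have := B.L; have := B.tm; have := B.N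
        have h2 : i ≤ t ∧ j ≤ t := ⟨hok.2.1, hok.2.2.2.1⟩
        apply all14 <;> simp only [aE, Matrix.cons_val] <;> omega
      show (_ ∧ _) ↔ _
      rw [and_iff_right hrng]
      exact h5 D x hD hB T _ ih l t i j sg u y v hl ht hok hsg hu hy hv hr
    · intro l t sg u y s w v hl ht hsg hu hy hw hv hr
      have hrng : ∀ q, aS l t sg u y s w v q < (x.length + 2) ^ D.e := by
        have := B.L; have := B.tm; have := B.N; have := B.J
        have h3 : s < (D.p x.length).f ^ s := Nat.lt_pow_self (by omega)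
        have h4 : w + 1 ≤ (w + 1) * (D.p x.length).f ^ s :=
          Nat.le_mul_of_pos_right _ (by positivity)
        have h5 : (D.p x.length).f ^ s ≤ (w + 1) * (D.p x.length).f ^ s :=
          Nat.le_mul_of_pos_left _ (by omega)
        apply all14 <;> simp only [aS, Matrix.cons_val] <;> omega
      show (_ ∧ _) ↔ _
      rw [and_iff_right hrng]
      exact h6 D x hD hB T _ ih l t sg u y s w v hl ht hsg hu hy hw hv hr

end Vale.Agent.P313.AC.H215
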