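import Vale.Agent.P313.AC.SpecA

/-!
Monotonicity of the class `UAC` in the depth.
-/

namespace Vale.Agent.P313.AC.H215

open Finset

theorem val_stable {C : Circuit} {lev : ℕ → ℕ}
    (h : ∀ g < C.size, ∀ h < C.size, C.wire g h → lev h < lev g) (x : List Bool) :
    ∀ (L g : ℕ), g < C.size → lev g ≤ L → ∀ e e' : ℕ, lev g < e → lev g < e' →
      (C.val x e g ↔ C.val x e' g) := by
  intro L
  induction L with
  | zero =>
    intro g hg hL e e' he he'
    obtain ⟨e, rfl⟩ : ∃ e0, e = e0 + 1 := ⟨e - 1, by omega⟩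
    obtain ⟨e', rfl⟩ : ∃ e0, e' = e0 + 1 := ⟨e' - 1, by omega⟩
    have hw : ∀ q < C.size, ¬ C.wire g q := fun q hq hw => by
      have := h g hg q hq hw
      omega
    unfold Circuit.val
    cases C.gate g with
    | input i => rfl
    | and => exact ⟨fun _ q hq hw' => absurd hw' (hw q hq), fun _ q hq hw' => absurd hw' (hw q hq)⟩
    | or =>
      exact ⟨fun ⟨q, hq, hw', _⟩ => absurd hw' (hw q hq), fun ⟨q, hq, hw', _⟩ => absurd hw' (hw q hq)⟩
    | nor => exact ⟨fun _ q hq hw' => absurd hw' (hw q hq), fun _ q hq hw' => absurd hw' (hw q hq)⟩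
  | succ L ih =>
    intro g hg hL e e' he he'
    obtain ⟨e, rfl⟩ : ∃ e0, e = e0 + 1 := ⟨e - 1, by omega⟩
    obtain ⟨e', rfl⟩ : ∃ e0, e' = e0 + 1 := ⟨e' - 1, by omega⟩
    have key : ∀ q < C.size, C.wire g q → (C.val x e q ↔ C.val x e' q) := fun q hq hw => by
      have := h g hg q hq hw
      exact ih q hq (by omega) e e' (by omega) (by omega)
    unfold Circuit.val
    cases C.gate g with
    | input i => rfl
    | and => exact forall_congr' fun q => forall_congr' fun hq => forall_congr' fun hw => key q hq hw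
    | or =>
      refine exists_congr fun q => and_congr_right fun hq => and_congr_right fun hw => key q hq hw
    | nor =>
      exact forall_congr' fun q => forall_congr' fun hq => forall_congr' fun hw =>
        not_congr (key q hq hw)

theorem uac_mono {d d' : ℕ → ℕ} {A : Set (List Bool)} (h : UAC d A) (k : ℕ)
    (hd : ∀ n, d n ≤ k * d' n + k) : UAC d' A := by
  obtain ⟨C, c, h1, h2, h3⟩ := h
  have hdd : ∀ n, c * d n + c ≤ (c * k + c) * d' n + (c * k + c) := fun n => by
    have := Nat.mul_le_mul_left c (hd n)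
    calc c * d n + c ≤ c * (k * d' n + k) + c := by omega
      _ = c * k * d' n + c * k + c := by ring
      _ ≤ (c * k + c) * d' n + (c * k + c) := by
        have : c * k * d' n ≤ (c * k + c) * d' n := Nat.mul_le_mul_right _ (by omega)
        omega
  refine ⟨C, c * k + c, fun n => ?_, h2, fun x => ?_⟩
  · obtain ⟨a1, a2, ⟨lev, a3, a4⟩, a5⟩ := h1 n
    refine ⟨a1.trans (Nat.pow_le_pow_right (by omega) (by omega)), a2,
      ⟨lev, fun g hg => (a3 g hg).trans_le (hdd n), a4⟩, a5⟩
  · rw [h3 x]
    obtain ⟨a1, a2, ⟨lev, a3, a4⟩, a5⟩ := h1 x.length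
    have := a3 _ a2
    exact val_stable a4 x (lev (C x.length).out) _ a2 le_rfl _ _ this (this.trans_le (hdd _))

end Vale.Agent.P313.AC.H215
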