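import Vale.Agent.P313.AC.FDef
import Vale.Agent.P313.AC.H577.Dec
import Vale.Agent.P313.AC.H215.F7
import Vale.Agent.P313.AC.H215.Mono

/-!
Final assembly.
-/

namespace Vale.Agent.P313.AC.H215

open Finset

theorem sV_eq (D : Dat) (x : List Bool) (v : ℕ → ℕ) :
    sV D x v = sset (D.p x.length).N (D.p x.length).C v := by
  ext z
  simp only [sV, sset, mem_filter, Pr.U]

theorem apxx_eq (D : Dat) (x : List Bool) : apxx D x = apE (D.p x.length) := by
  funext m v
  unfold apxx apE
  rw [sV_eq]
  rfl

theorem vA0_eq {D : Dat} (hD : D.Ok) (x : List Bool) :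
    vA0 D x = base (D.p x.length) (nxt D x) := by
  funext u y
  obtain ⟨q, hq⟩ := (hD.good x.length).hQ1
  have hN := (hD.good x.length).N_pos
  unfold vA0 gA0 base nxt
  have h1 : (D.p x.length).Q / 2 ^ ((D.p x.length).g0 + 1) = (D.p x.length).N * q := by
    rw [hq, mul_assoc, Nat.mul_div_cancel_left _ (by positivity)]
  have h2 : (D.p x.length).Q / 2 ^ (D.p x.length).g0 = 2 * ((D.p x.length).N * q) := by
    rw [hq, pow_succ, show 2 ^ (D.p x.length).g0 * 2 * (D.p x.length).N * q =
      2 ^ (D.p x.length).g0 * (2 * ((D.p x.length).N * q)) by ring,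
      Nat.mul_div_cancel_left _ (by positivity)]
  have h3 : ((D.p x.length).Q - (D.p x.length).Q / 2 ^ (D.p x.length).g0) / 2 =
      (D.p x.length).N * q * (2 ^ (D.p x.length).g0 - 1) := by
    rw [h2]
    have : (D.p x.length).Q - 2 * ((D.p x.length).N * q) =
        2 * ((D.p x.length).N * q * (2 ^ (D.p x.length).g0 - 1)) := by
      conv_lhs => rw [hq]
      rw [Nat.mul_sub, Nat.mul_one, Nat.mul_sub]
      congr 1
      rw [pow_succ]; ring
    rw [this, Nat.mul_div_cancel_left _ (by norm_num)]
  rw [h1, h3]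
  ring

theorem vA_eq {D : Dat} (hD : D.Ok) (x : List Bool) (l t u y : ℕ) :
    vA D x l t u y = AE D.j0 (D.p x.length) (nxt D x) l t u y := by
  unfold vA AE gJ
  rw [apxx_eq, vA0_eq hD]

theorem final (hA : ModA) (hF1 : ModF1) (hF7 : ModF7) (hC4 : ModC4) (hDD : ModD) (hE : ModE)
    (hE2 : ModE2) (hG : ModG) : Goal := by
  intro A hAA
  obtain ⟨c, st, ps, nx, hc, nst, nps, nnx, lst, lnx, hacc⟩ := hE A hAA
  obtain ⟨κ, j0, e, p, hκ, hj, good, goodF⟩ := hG c hc
  set D : Dat := ⟨c, κ, j0, e, p, st, ps, nx⟩ with hDdef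
  have hD : D.Ok := by
    refine ⟨hκ, hj, good, goodF, nst, nps, nnx, fun n => ?_, fun n s b u hu => ?_⟩
    · show st n < (p n).N
      rw [(good n).hN]; exact lst n
    · show nx n s u b < (p n).N
      have hu' : u < (p n).N := hu
      rw [(good n).hN] at hu' ⊢
      exact lnx n s b u hu'
  -- number of rounds
  set K : ℕ := (19 * κ + 4 + 2 * j0) * e + 2 with hK
  have hlam : ∀ n, 1 ≤ lam n := fun n => Nat.log_pos (by norm_num) (by omega)
  have hT : ∀ n, rA D (p n).L (p n).tm + 1 ≤ K * lam n := by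
    intro n
    have h1 := goodF.hL n
    have h2 := hlam n
    show (15 * κ + 4 + 2 * j0) * (p n).L + 4 * κ * (p n).tm + 1 + 1 ≤ K * lam n
    have h3 : (15 * κ + 4 + 2 * j0) * (p n).L + 4 * κ * (p n).tm ≤
        (19 * κ + 4 + 2 * j0) * ((p n).L + (p n).tm) := by nlinarith
    have h4 : (19 * κ + 4 + 2 * j0) * ((p n).L + (p n).tm) ≤
        (19 * κ + 4 + 2 * j0) * (e * lam n) := Nat.mul_le_mul_left _ h1
    rw [hK, add_mul]
    nlinarith
  have hset : A = {x | it (opF D) D.e x (K * lam x.length) aO} := by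
    ext x
    have hlnx : ∀ u < (D.p x.length).N, ∀ b, nxt D x u b < (D.p x.length).N :=
      fun u hu b => hD.lnx _ _ _ u hu
    have hB : Bdd D x := by
      intro l t u y hl ht0 ht hu hy
      rw [vA_eq hD]
      exact AE_le hC4 hDD hE2 (hD.good x.length) hlnx hl ht0 ht hu hy
    have B := bd hD x.length
    have five := B.five
    obtain ⟨T, hTe⟩ : ∃ T, K * lam x.length = T + 1 := ⟨K * lam x.length - 1, by
      have := hT x.length; omega⟩
    have hinv := hF7 D x hD hB T
    have hrT : rA D (D.p x.length).L (D.p x.length).tm ≤ T := by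
      have h1 : rA D (p x.length).L (p x.length).tm + 1 ≤ K * lam x.length := hT x.length
      show rA D (p x.length).L (p x.length).tm ≤ T
      omega
    have hdec := AE_dec hC4 hDD hE2 (hD.good x.length) hlnx (hD.lst x.length)
    rw [← vA_eq hD] at hdec
    have hA1 : x ∈ A ↔ (D.p x.length).Q ≤
        2 * vA D x (D.p x.length).L (D.p x.length).tm (D.st x.length) 0 := by
      constructor
      · intro hx
        exact hdec.1 ((hacc x).1 hx)
      · intro hx
        by_contra hn
        exact hdec.2 ((hacc x).2 hn) hx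
    have hNpos := (hD.good x.length).N_pos
    have hcA : ∀ v, v < (x.length + 2) ^ D.e →
        (it (opF D) D.e x T (aA (D.p x.length).L (D.p x.length).tm (D.st x.length) 0 v) ↔
          v = vA D x (D.p x.length).L (D.p x.length).tm (D.st x.length) 0) := fun v hv =>
      hinv.cA _ _ _ _ v le_rfl (hD.good x.length).htm le_rfl (hD.lst x.length) hNpos hv hrT
    have hvb : vA D x (D.p x.length).L (D.p x.length).tm (D.st x.length) 0 <
        (x.length + 2) ^ D.e := by
      have h1 := hB (D.p x.length).L (D.p x.length).tm (D.st x.length) 0 le_rfl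
        (hD.good x.length).htm le_rfl (hD.lst x.length) hNpos
      have h2 := B.Q
      omega
    rw [hA1]
    show _ ↔ it (opF D) D.e x (K * lam x.length) aO
    rw [hTe]
    show _ ↔ (_ ∧ opF D x (it (opF D) D.e x T) aO)
    have hrng : ∀ i, aO i < (x.length + 2) ^ D.e := by
      apply all14 <;> simp only [aO, Matrix.cons_val] <;> omega
    rw [and_iff_right hrng]
    have hop : opF D x (it (opF D) D.e x T) aO ↔ opO D x (it (opF D) D.e x T) aO := by
      unfold opF
      simp [aO]
    rw [hop]
    unfold opO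
    constructor
    · intro h
      exact ⟨_, hvb, h, (hcA _ hvb).2 rfl⟩
    · rintro ⟨v, hv, h1, h2⟩
      rw [(hcA v hv).1 h2] at h1
      exact h1
  have hUAC : UAC (fun n => K * lam n) A := by
    rw [hset]
    refine hA 14 (opF D) D.e (fun n => K * lam n) (fun _ => aO) (hF1 D hD) ?_ (fun i => LF.const _)
    exact LF.mul (LF.const K) (LF.log2 (LF.add (LF.proj 0) (LF.const 2)))
  exact uac_mono hUAC K (fun n => by
    show K * lam n ≤ K * Nat.log 2 (n + 2) + K
    unfold lam; omega)

end Vale.Agent.P313.AC.H215
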